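import Vale.Agent.P216.AS.Htpy

/-! # One fixed homotopy operator on Alexander-Spanier cochains

A linear functional `lam` on the functions of pairs of parameters `r 0, r 1`, which kills the
functions vanishing on the close pairs of `[0, 1]` and has `lam (f (r 1) - f (r 0)) = f 1 - f 0`
(integration over the interval), turns a uniformly continuous homotopy `H` into ONE linear
operator `Q H` with `d Q + Q d = (H 0)^* - (H 1)^*`, which preserves all the subcomplexes. -/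

open Set Matrix

namespace Vale.Agent.P216.DV965

open Vale.Agent.P216.AS

/-- `F` vanishes on the close pairs of `[0, 1]`. -/
def VanI {k : Type} [Zero k] (F : ℝ × ℝ → k) : Prop :=
  ∃ δ > 0, ∀ r ∈ Icc (0 : ℝ) 1, ∀ s ∈ Icc (0 : ℝ) 1, |r - s| < δ → F (r, s) = 0

/-- The submodule of the functions vanishing on the close pairs of `[0, 1]`. -/
def NI (k : Type) [Field k] : Submodule k (ℝ × ℝ → k) where
  carrier := {F | VanI F}
  zero_mem' := ⟨1, one_pos, fun _ _ _ _ _ => rfl⟩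
  add_mem' := by
    rintro F F' ⟨δ, hδ, h⟩ ⟨δ', hδ', h'⟩
    refine ⟨min δ δ', lt_min hδ hδ', fun r hr s hs hrs => ?_⟩
    rw [Pi.add_apply, h r hr s hs (hrs.trans_le (min_le_left _ _)),
      h' r hr s hs (hrs.trans_le (min_le_right _ _)), add_zero]
  smul_mem' := by
    rintro c F ⟨δ, hδ, h⟩
    exact ⟨δ, hδ, fun r hr s hs hrs => by rw [Pi.smul_apply, h r hr s hs hrs, smul_zero]⟩

/-- The difference `f (r 1) - f (r 0)`. -/
def DI (k : Type) [Field k] : (ℝ → k) →ₗ[k] (ℝ × ℝ → k) where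
  toFun f := fun r => f r.2 - f r.1
  map_add' f g := by funext r; simp only [Pi.add_apply]; ring
  map_smul' c f := by funext r; simp only [Pi.smul_apply, smul_eq_mul, RingHom.id_apply]; ring

/-- A function on `[0, 1]` which is locally constant with a uniform radius is constant. -/
theorem eq_of_locally {k : Type} {f : ℝ → k} {δ : ℝ} (hδ : 0 < δ)
    (h : ∀ r ∈ Icc (0 : ℝ) 1, ∀ s ∈ Icc (0 : ℝ) 1, |r - s| < δ → f s = f r) : f 1 = f 0 := by
  obtain ⟨N, hN⟩ := exists_nat_gt (1 / δ)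
  have hN0 : (0 : ℝ) < N := lt_trans (by positivity) hN
  have hN' : 1 / (N : ℝ) < δ := by
    rw [div_lt_iff₀ hN0]
    rw [div_lt_iff₀ hδ] at hN
    linarith [mul_comm (N : ℝ) δ]
  have hmem : ∀ i : ℕ, i ≤ N → (i : ℝ) / N ∈ Icc (0 : ℝ) 1 := fun i hi =>
    ⟨by positivity, by rw [div_le_one hN0]; exact_mod_cast hi⟩
  have ind : ∀ i : ℕ, i ≤ N → f ((i : ℝ) / N) = f 0 := by
    intro i
    induction i with
    | zero => intro _; simp
    | succ i ih =>
      intro hi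
      rw [← ih (by omega)]
      refine h _ (hmem i (by omega)) _ (hmem (i + 1) hi) ?_
      rw [abs_sub_comm, ← sub_div]
      push_cast
      rw [add_sub_cancel_left, abs_of_pos (by positivity)]
      exact hN'
  have := ind N le_rfl
  rwa [div_self hN0.ne'] at this

/-- The existence of the functional. -/
theorem exists_lam (k : Type) [Field k] : ∃ l : (ℝ × ℝ → k) →ₗ[k] k,
    (∀ F, VanI F → l F = 0) ∧ ∀ f : ℝ → k, l (fun r => f r.2 - f r.1) = f 1 - f 0 := by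
  -- the difference modulo the functions vanishing on close pairs
  let φ : (ℝ → k) →ₗ[k] ((ℝ × ℝ → k) ⧸ NI k) := (NI k).mkQ ∘ₗ DI k
  let e : (ℝ → k) →ₗ[k] k :=
    { toFun := fun f => f 1 - f 0
      map_add' := fun f g => by simp only [Pi.add_apply]; ring
      map_smul' := fun c f => by
        simp only [Pi.smul_apply, smul_eq_mul, RingHom.id_apply]; ring }
  have he : LinearMap.ker φ ≤ LinearMap.ker e := by
    intro f hf
    rw [LinearMap.mem_ker, LinearMap.comp_apply, Submodule.mkQ_apply,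
      Submodule.Quotient.mk_eq_zero] at hf
    obtain ⟨δ, hδ, h⟩ := hf
    rw [LinearMap.mem_ker]
    change f 1 - f 0 = 0
    rw [sub_eq_zero]
    exact eq_of_locally hδ fun r hr s hs hrs => sub_eq_zero.1 (h r hr s hs hrs)
  obtain ⟨l, hl⟩ := LinearMap.exists_extend
    ((LinearMap.ker φ).liftQ e he ∘ₗ φ.quotKerEquivRange.symm.toLinearMap)
  refine ⟨l ∘ₗ (NI k).mkQ, fun F hF => ?_, fun f => ?_⟩
  · rw [LinearMap.comp_apply, Submodule.mkQ_apply, (Submodule.Quotient.mk_eq_zero _).2 hF, map_zero]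
  · have h1 := LinearMap.congr_fun hl ⟨φ f, LinearMap.mem_range_self φ f⟩
    have h2 : φ.quotKerEquivRange.symm ⟨φ f, LinearMap.mem_range_self φ f⟩ =
        (LinearMap.ker φ).mkQ f := by
      rw [LinearEquiv.symm_apply_eq]
      rfl
    exact h1.trans (congrArg ((LinearMap.ker φ).liftQ e he) h2)

/-- Integration over the interval. -/
noncomputable def lam (k : Type) [Field k] : (ℝ × ℝ → k) →ₗ[k] k := (exists_lam k).choose

theorem lam_van {k : Type} [Field k] {F : ℝ × ℝ → k} (hF : VanI F) : lam k F = 0 :=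
  (exists_lam k).choose_spec.1 F hF

theorem lam_diff {k : Type} [Field k] (f : ℝ → k) : lam k (fun r => f r.2 - f r.1) = f 1 - f 0 :=
  (exists_lam k).choose_spec.2 f

section Ops

variable {E E' : Type} {k : Type} [Field k] {I : Type}

/-- A linear functional commutes with the coboundary. -/
theorem d_fun {Ω : Type} (l : (Ω → k) →ₗ[k] k) {n : ℕ} (c : Ω → (Fin n → E) → k)
    (x : Fin (n + 1) → E) :
    P265.AS.d (fun y => l fun w => c w y) x = l fun w => P265.AS.d (c w) x := by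
  induction n with
  | zero => rfl
  | succ n ih =>
    rw [P265.AS.d_succ_apply]
    rw [ih (fun w y => c w (vecCons (vecHead x) y)) (vecTail x), ← map_sub]
    rfl

/-- **The homotopy operator** of the homotopy `H`. -/
noncomputable def hq (H : ℝ → E → E') (n : ℕ) :
    ((Fin (n + 1) → E') → k) →ₗ[k] ((Fin n → E) → k) where
  toFun c x := -lam k fun r => P265.AS.prism (H r.1) (H r.2) c x
  map_add' c c' := by
    funext x
    rw [Pi.add_apply, ← neg_add, ← map_add]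
    congr 2
    funext r
    rw [P265.AS.prism_add]
    rfl
  map_smul' a c := by
    funext x
    rw [Pi.smul_apply, RingHom.id_apply, smul_neg, ← map_smul]
    congr 2
    funext r
    rw [P265.AS.prism_smul]
    rfl

theorem hq_apply (H : ℝ → E → E') {n : ℕ} (c : (Fin (n + 1) → E') → k) (x : Fin n → E) :
    hq H n c x = -lam k fun r => P265.AS.prism (H r.1) (H r.2) c x := rfl

/-- The homotopy operator vanishes on the cochains of degree `0`. -/
theorem hq_zero (H : ℝ → E → E') (c : (Fin 1 → E') → k) : hq H 0 c = 0 := by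
  funext x
  rw [hq_apply]
  have : (fun r : ℝ × ℝ => P265.AS.prism (H r.1) (H r.2) c x) = 0 := rfl
  rw [this, map_zero, neg_zero]
  rfl

/-- **The homotopy identity** (all degrees, `hq H 0 = 0`). -/
theorem d_hq (H : ℝ → E → E') {n : ℕ} (c : (Fin (n + 1) → E') → k) :
    P265.AS.d (hq H n c) + hq H (n + 1) (P265.AS.d c) =
      P265.AS.pb (H 0) c - P265.AS.pb (H 1) c := by
  funext x
  have h1 : P265.AS.d (hq H n c) x =
      -lam k fun r => P265.AS.d (P265.AS.prism (H r.1) (H r.2) c) x := by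
    rw [← d_fun]
    have : hq H n c = -(fun y => lam k fun r => P265.AS.prism (H r.1) (H r.2) c y) := rfl
    rw [this, P265.AS.d_neg]
    rfl
  rw [Pi.add_apply, h1, hq_apply, ← neg_add, ← map_add]
  have h2 : ((fun r : ℝ × ℝ => P265.AS.d (P265.AS.prism (H r.1) (H r.2) c) x) +
      fun r => P265.AS.prism (H r.1) (H r.2) (P265.AS.d c) x) =
      fun r => (fun s => c (H s ∘ x)) r.2 - (fun s => c (H s ∘ x)) r.1 := by
    funext r
    exact P265.AS.d_prism _ _ c x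
  rw [h2, lam_diff (fun s => c (H s ∘ x)), neg_sub]
  rfl

/-- The homotopy identity in degree `0`. -/
theorem hq_d_zero (H : ℝ → E → E') (c : (Fin 1 → E') → k) :
    hq H 1 (P265.AS.d c) = P265.AS.pb (H 0) c - P265.AS.pb (H 1) c := by
  rw [← d_hq H c, hq_zero, P265.AS.d_zero, zero_add]

/-- The homotopy identity in positive degree, on the ambient complex. -/
theorem d_hq_succ (H : ℝ → E → E') {n : ℕ} (c : (Fin (n + 2) → E') → k) :
    (ASK E k).d n (hq H (n + 1) c) + hq H (n + 2) ((ASK E' k).d (n + 1) c) =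
      P265.AS.pb (H 0) c - P265.AS.pb (H 1) c := d_hq H c

/-- Naturality, with the commutation only on the entries. -/
theorem hq_pb_apply {H : ℝ → E → E} {H' : ℝ → E' → E'} {f : E → E'} {n : ℕ}
    (c : (Fin (n + 1) → E') → k) (x : Fin n → E)
    (h : ∀ r ∈ Icc (0 : ℝ) 1, ∀ i, H' r (f (x i)) = f (H r (x i))) :
    hq H' n c (f ∘ x) = hq H n (P265.AS.pb f c) x := by
  rw [hq_apply, hq_apply, neg_inj, ← sub_eq_zero, ← map_sub]
  refine lam_van ⟨1, one_pos, fun r hr s hs _ => ?_⟩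
  rw [Pi.sub_apply, sub_eq_zero]
  have key : ∀ {n : ℕ} (c : (Fin (n + 1) → E') → k) (x : Fin n → E),
      (∀ i, H' r (f (x i)) = f (H r (x i))) → (∀ i, H' s (f (x i)) = f (H s (x i))) →
      P265.AS.prism (H' r) (H' s) c (f ∘ x) =
        P265.AS.prism (H r) (H s) (P265.AS.pb f c) x := by
    intro n
    induction n with
    | zero => intro c x _ _; rfl
    | succ n ih =>
      intro c x h0 h1
      obtain ⟨a, x, rfl⟩ : ∃ a y, x = vecCons a y := ⟨vecHead x, vecTail x, by simp⟩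
      rw [P265.AS.comp_vecCons, P265.AS.prism_cons, P265.AS.prism_cons]
      have e0 := h0 0
      have e1 := h1 0
      have e0' := fun i : Fin n => h0 i.succ
      have e1' := fun i : Fin n => h1 i.succ
      simp only [cons_val_zero, cons_val_succ] at e0 e1 e0' e1'
      rw [ih _ _ e0' e1', e0, e1]
      rw [show H' s ∘ f ∘ x = f ∘ H s ∘ x from funext e1']
      simp only [P265.AS.pb_apply, P265.AS.comp_vecCons]
      congr 2
  exact key c x (h r hr) (h s hs)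

/-- Naturality. -/
theorem hq_pb {H : ℝ → E → E} {H' : ℝ → E' → E'} {f : E → E'} {n : ℕ}
    (h : ∀ r ∈ Icc (0 : ℝ) 1, ∀ y, H' r (f y) = f (H r y)) (c : (Fin (n + 1) → E') → k) :
    P265.AS.pb f (hq H' n c) = hq H n (P265.AS.pb f c) := by
  funext x
  exact hq_pb_apply c x fun r hr i => h r hr (x i)

/-- The values of `hq H c` at `x` only involve the values of `c` at the tuples with entries among
the `H r (x j)` and `H s (x j)`, `r` and `s` close. -/
theorem hq_eq_zero {H : ℝ → E → E'} {n : ℕ} {c : (Fin (n + 1) → E') → k} {x : Fin n → E}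
    {δ : ℝ} (hδ : 0 < δ)
    (h : ∀ r ∈ Icc (0 : ℝ) 1, ∀ s ∈ Icc (0 : ℝ) 1, |r - s| < δ → ∀ y : Fin (n + 1) → E',
      (∀ i, ∃ j, y i = H r (x j) ∨ y i = H s (x j)) → c y = 0) : hq H n c x = 0 := by
  rw [hq_apply, lam_van, neg_zero]
  exact ⟨δ, hδ, fun r hr s hs hrs => P265.AS.prism_eq_zero _ _ fun y hy => h r hr s hs hrs y hy⟩

/-- Equivariance is preserved. -/
theorem hq_eqv {a : I → E → E} {a' : I → E' → E'} {χ : I → k} {X : Set E} {X' : Set E'}
    {H : ℝ → E → E'} (hX : ∀ r ∈ Icc (0 : ℝ) 1, ∀ x ∈ X, H r x ∈ X')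
    (ha : ∀ r ∈ Icc (0 : ℝ) 1, ∀ i, ∀ x ∈ X, H r (a i x) = a' i (H r x))
    {n : ℕ} {c : (Fin (n + 1) → E') → k} (hc : Eqv a' χ X' c) : Eqv a χ X (hq H n c) := by
  intro i x hx
  have h1 : hq H n c (a i ∘ x) = hq H n (P265.AS.pb (a' i) c) x := by
    rw [hq_apply, hq_apply, neg_inj, ← sub_eq_zero, ← map_sub]
    refine lam_van ⟨1, one_pos, fun r hr s hs _ => ?_⟩
    rw [Pi.sub_apply, sub_eq_zero]
    exact P265.AS.prism_comp (H r) (H s) (a i) (a' i) c x (fun j => ha r hr i _ (hx j))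
      fun j => ha s hs i _ (hx j)
  have h2 : hq H n (P265.AS.pb (a' i) c - χ i • c) x = 0 := by
    refine hq_eq_zero one_pos fun r hr s hs _ y hy => ?_
    rw [Pi.sub_apply, P265.AS.pb_apply, Pi.smul_apply, smul_eq_mul, sub_eq_zero]
    refine hc i y fun m => ?_
    obtain ⟨j, hj | hj⟩ := hy m
    · exact hj ▸ hX r hr _ (hx j)
    · exact hj ▸ hX s hs _ (hx j)
  rw [map_sub, map_smul, Pi.sub_apply, Pi.smul_apply, smul_eq_mul, sub_eq_zero] at h2
  rw [h1, h2]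

section Metric

variable [PseudoMetricSpace E] [PseudoMetricSpace E']

/-- `H` is uniformly continuous on `[0, 1] × X`. -/
def UC (X : Set E) (H : ℝ → E → E') : Prop :=
  ∀ ε > 0, ∃ δ > 0, ∀ r ∈ Icc (0 : ℝ) 1, ∀ s ∈ Icc (0 : ℝ) 1, ∀ x ∈ X, ∀ y ∈ X,
    |r - s| < δ → dist x y < δ → dist (H r x) (H s y) < ε

theorem UC.mono {X Y : Set E} {H : ℝ → E → E'} (h : UC Y H) (hXY : X ⊆ Y) : UC X H := by
  intro ε hε
  obtain ⟨δ, hδ, h⟩ := h ε hε
  exact ⟨δ, hδ, fun r hr s hs x hx y hy => h r hr s hs x (hXY hx) y (hXY hy)⟩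

/-- Vanishing on the small tuples is preserved. -/
theorem hq_van {A : Set E} {A' : Set E'} {H : ℝ → E → E'}
    (hA : ∀ r ∈ Icc (0 : ℝ) 1, ∀ x ∈ A, H r x ∈ A') (hu : UC A H)
    {n : ℕ} {c : (Fin (n + 1) → E') → k} (hc : Van A' c) : Van A (hq H n c) := by
  obtain ⟨ε, hε, hc⟩ := hc
  obtain ⟨δ, hδ, hu⟩ := hu ε hε
  refine ⟨δ, hδ, fun x hx => ?_⟩
  refine hq_eq_zero hδ fun r hr s hs hrs y hy => hc y ⟨fun i => ?_, fun i j => ?_⟩
  · obtain ⟨j, hj | hj⟩ := hy i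
    · exact hj ▸ hA r hr _ (hx.1 j)
    · exact hj ▸ hA s hs _ (hx.1 j)
  · have h0 : ∀ t : ℝ, |t - t| < δ := fun t => by simpa using hδ
    obtain ⟨i', hi⟩ := hy i
    obtain ⟨j', hj⟩ := hy j
    have a := hx.1 i'
    have b := hx.1 j'
    rcases hi with hi | hi <;> rcases hj with hj | hj <;> rw [hi, hj]
    · exact hu r hr r hr _ a _ b (h0 r) (hx.2 _ _)
    · exact hu r hr s hs _ a _ b hrs (hx.2 _ _)
    · exact hu s hs r hr _ a _ b (by rwa [abs_sub_comm]) (hx.2 _ _)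
    · exact hu s hs s hs _ a _ b (h0 s) (hx.2 _ _)

/-- Vanishing on the small tuples of `X` near `A` is preserved. -/
theorem hq_vanN {X A : Set E} {X' A' : Set E'} {H : ℝ → E → E'}
    (hX : ∀ r ∈ Icc (0 : ℝ) 1, ∀ x ∈ X, H r x ∈ X')
    (hA : ∀ r ∈ Icc (0 : ℝ) 1, ∀ x ∈ A, H r x ∈ A') (hu : UC (X ∪ A) H)
    {n : ℕ} {c : (Fin (n + 1) → E') → k} (hc : VanN X' A' c) : VanN X A (hq H n c) := by
  obtain ⟨ε, hε, hc⟩ := hc
  obtain ⟨δ, hδ, hu⟩ := hu ε hε
  have h0 : ∀ t : ℝ, |t - t| < δ := fun t => by simpa using hδ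
  refine ⟨δ, hδ, fun x hx => ?_⟩
  refine hq_eq_zero hδ fun r hr s hs hrs y hy => hc y ⟨⟨fun i => ?_, fun i j => ?_⟩, fun i => ?_⟩
  · obtain ⟨j, hj | hj⟩ := hy i
    · exact hj ▸ hX r hr _ (hx.1.1 j)
    · exact hj ▸ hX s hs _ (hx.1.1 j)
  · obtain ⟨i', hi⟩ := hy i
    obtain ⟨j', hj⟩ := hy j
    have a : x i' ∈ X ∪ A := Or.inl (hx.1.1 i')
    have b : x j' ∈ X ∪ A := Or.inl (hx.1.1 j')
    rcases hi with hi | hi <;> rcases hj with hj | hj <;> rw [hi, hj]
    · exact hu r hr r hr _ a _ b (h0 r) (hx.1.2 _ _)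
    · exact hu r hr s hs _ a _ b hrs (hx.1.2 _ _)
    · exact hu s hs r hr _ a _ b (by rwa [abs_sub_comm]) (hx.1.2 _ _)
    · exact hu s hs s hs _ a _ b (h0 s) (hx.1.2 _ _)
  · obtain ⟨j, hj⟩ := hy i
    obtain ⟨z, hz, hd⟩ := hx.2 j
    rcases hj with hj | hj <;> rw [hj]
    · exact ⟨_, hA r hr z hz, hu r hr r hr _ (Or.inl (hx.1.1 j)) _ (Or.inr hz) (h0 r) hd⟩
    · exact ⟨_, hA s hs z hz, hu s hs s hs _ (Or.inl (hx.1.1 j)) _ (Or.inr hz) (h0 s) hd⟩

/-- **`hq H` preserves `Zr`.** -/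
theorem hq_mem_Zr {a : I → E → E} {a' : I → E' → E'} {χ : I → k} {X A : Set E} {X' A' : Set E'}
    {H : ℝ → E → E'} (hX : ∀ r ∈ Icc (0 : ℝ) 1, ∀ x ∈ X, H r x ∈ X')
    (hA : ∀ r ∈ Icc (0 : ℝ) 1, ∀ x ∈ A, H r x ∈ A') (hu : UC A H)
    (ha : ∀ r ∈ Icc (0 : ℝ) 1, ∀ i, ∀ x ∈ X, H r (a i x) = a' i (H r x))
    {n : ℕ} {c : (Fin (n + 2) → E') → k} (hc : c ∈ Zr a' χ X' A' (n + 1)) :
    hq H (n + 1) c ∈ Zr a χ X A n :=
  ⟨hq_eqv hX ha hc.1, hq_van hA hu hc.2⟩

omit [PseudoMetricSpace E] [PseudoMetricSpace E'] in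
/-- **`hq H` preserves `Cc`.** -/
theorem hq_mem_Cc {a : I → E → E} {a' : I → E' → E'} {χ : I → k} {X : Set E} {X' : Set E'}
    {H : ℝ → E → E'} (hX : ∀ r ∈ Icc (0 : ℝ) 1, ∀ x ∈ X, H r x ∈ X')
    (ha : ∀ r ∈ Icc (0 : ℝ) 1, ∀ i, ∀ x ∈ X, H r (a i x) = a' i (H r x))
    {n : ℕ} {c : (Fin (n + 2) → E') → k} (hc : c ∈ Cc a' χ X' (n + 1)) :
    hq H (n + 1) c ∈ Cc a χ X n :=
  hq_eqv hX ha hc

/-- `hq H` preserves `Zn`. -/
theorem hq_mem_Zn {a : I → E → E} {a' : I → E' → E'} {χ : I → k} {X A : Set E} {X' A' : Set E'}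
    {H : ℝ → E → E'} (hX : ∀ r ∈ Icc (0 : ℝ) 1, ∀ x ∈ X, H r x ∈ X')
    (hA : ∀ r ∈ Icc (0 : ℝ) 1, ∀ x ∈ A, H r x ∈ A') (hu : UC (X ∪ A) H)
    (ha : ∀ r ∈ Icc (0 : ℝ) 1, ∀ i, ∀ x ∈ X, H r (a i x) = a' i (H r x))
    {n : ℕ} {c : (Fin (n + 2) → E') → k} (hc : c ∈ Zn a' χ X' A' (n + 1)) :
    hq H (n + 1) c ∈ Zn a χ X A n :=
  ⟨hq_eqv hX ha hc.1, hq_vanN hX hA hu hc.2⟩

end Metric

end Ops

end Vale.Agent.P216.DV965
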