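import Vale.Agent.P216.DV965.Q
import Vale.Agent.P216.Bor.AsG

/-! # The homotopy operator of an arc from the identity to the generator `g` -/

open Set Matrix Finset

namespace Vale.Agent.P216.DV965

open Vale.Agent.P216.AS Vale.Agent.P216.H609

variable {E : Type} {k : Type} [Field k]

/-- `H` is an arc of maps from the identity to `g`, commuting with `g`. -/
structure Arc (g : E → E) (H : ℝ → E → E) : Prop where
  zero : ∀ x, H 0 x = x
  one : ∀ x, H 1 x = g x
  comm : ∀ r ∈ Icc (0 : ℝ) 1, ∀ x, H r (g x) = g (H r x)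

/-- The homotopy operator on the ambient complex. -/
noncomputable def Qop (k : Type) [Field k] (H : ℝ → E → E) (n : ℕ) :
    (ASK E k).K (n + 1) →ₗ[k] (ASK E k).K n := hq H (n + 1)

theorem Qop_apply (H : ℝ → E → E) {n : ℕ} (c : (Fin (n + 2) → E) → k) :
    Qop k H n c = hq H (n + 1) c := rfl

/-- `d Q + Q d = 1 - g`. -/
theorem Arc.d_Q {g : E → E} {H : ℝ → E → E} (h : Arc g H) {n : ℕ} (c : (ASK E k).K (n + 1)) :
    (ASK E k).d n (Qop k H n c) + Qop k H (n + 1) ((ASK E k).d (n + 1) c) =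
      c - pbE k g (n + 1) c := by
  refine (d_hq H c).trans ?_
  have h0 : H 0 = id := funext h.zero
  have h1 : H 1 = g := funext h.one
  rw [h0, h1]
  rfl

/-- `Q d = 1 - g` in degree `0`. -/
theorem Arc.Q_d_zero {g : E → E} {H : ℝ → E → E} (h : Arc g H) (c : (ASK E k).K 0) :
    Qop k H 0 ((ASK E k).d 0 c) = c - pbE k g 0 c := by
  refine (hq_d_zero H c).trans ?_
  have h0 : H 0 = id := funext h.zero
  have h1 : H 1 = g := funext h.one
  rw [h0, h1]
  rfl

theorem Arc.Q_g {g : E → E} {H : ℝ → E → E} (h : Arc g H) {n : ℕ} (c : (ASK E k).K (n + 1)) :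
    Qop k H n (pbE k g (n + 1) c) = pbE k g n (Qop k H n c) :=
  (hq_pb (H := H) (H' := H) (f := g) h.comm c).symm

theorem Arc.Q_g_pow {g : E → E} {H : ℝ → E → E} (h : Arc g H) {n : ℕ} (j : ℕ)
    (c : (ASK E k).K (n + 1)) :
    Qop k H n ((pbE k g (n + 1) ^ j) c) = (pbE k g n ^ j) (Qop k H n c) := by
  induction j with
  | zero => rfl
  | succ j ih =>
    rw [pow_succ', pow_succ', Module.End.mul_apply, Module.End.mul_apply, h.Q_g, ih]

theorem Arc.Q_nm {g : E → E} {H : ℝ → E → E} (h : Arc g H) {p : ℕ} {n : ℕ}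
    (c : (ASK E k).K (n + 1)) :
    Qop k H n (nm p (pbE k g (n + 1)) c) = nm p (pbE k g n) (Qop k H n c) := by
  unfold nm
  rw [LinearMap.sum_apply, LinearMap.sum_apply, map_sum]
  exact Finset.sum_congr rfl fun j _ => h.Q_g_pow j c

theorem Arc.Q_asG_nm {g : E → E} {H : ℝ → E → E} (h : Arc g H) {p : ℕ} (hg : ∀ x, g^[p] x = x)
    {n : ℕ} (c : (ASK E k).K (n + 1)) :
    Qop k H n ((asG k g p hg).nm (n + 1) c) = (asG k g p hg).nm n (Qop k H n c) := h.Q_nm c

/-- Naturality under a map intertwining the arcs. -/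
theorem Qop_pb {E' : Type} {H : ℝ → E → E} {H' : ℝ → E' → E'} {f : E → E'} {n : ℕ}
    (h : ∀ r ∈ Icc (0 : ℝ) 1, ∀ y, H' r (f y) = f (H r y)) (c : (ASK E' k).K (n + 1)) :
    (P265.AS.pb f (Qop k H' n c : (Fin (n + 1) → E') → k) : (Fin (n + 1) → E) → k) =
      Qop k H n (P265.AS.pb f (c : (Fin (n + 2) → E') → k)) := hq_pb h c

end Vale.Agent.P216.DV965
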